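import Vale.Agent.Lib.P160.Law
import Vale.Agent.Lib.P160.Rate

/-! P160: the exponential rate of the singularity probability, reduced to kernel vectors with
few zero coordinates. -/

namespace Vale.Agent.Results.P160.RateReduction

open Filter Topology MeasureTheory ProbabilityTheory

/-- `A` kills a nonzero vector which has at least `z` zero coordinates -/
def KillsSparse {n : ℕ} (A : Matrix (Fin n) (Fin n) ℝ) (z : ℕ) : Prop :=
  ∃ v : Fin n → ℝ, v ≠ 0 ∧ A.mulVec v = 0 ∧ z ≤ (Finset.univ.filter fun j => v j = 0).card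

/-- For every `n` let `A n` be a random real symmetric `n × n` matrix whose entries on and above
the diagonal are independent and uniform on `{-1, 1}`.  Let `z n` be at least `c n / log₂ n` with
`c > 2`, and at most `n - 2`.  Write `q n` for the probability that `A n` is singular, `s n` for
the probability that `A n` kills a nonzero vector with at least `z n` zero coordinates, and `r n`
for the probability that `A n` is singular but kills no such vector.  Then

* `(s n) ^ (1 / n)` tends to `1 / 2`;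
* `(q n) ^ (1 / n) = max (1 / 2) ((r n) ^ (1 / n)) + o(1)`;
* for some `κ < 1 / 2` and all large `n`, `s n` and `q n - r n` are at distance at most `κ ^ n` from
  `n (n - 1) / 2 ^ n`, and the probability that `A n` kills a vector as above although no two of
  its columns are equal or opposite is at most `κ ^ n`. -/
theorem result {Ω : Type*} [MeasurableSpace Ω] (P : Measure Ω) [IsProbabilityMeasure P]
    (A : (n : ℕ) → Ω → Matrix (Fin n) (Fin n) ℝ)
    (hmeas : ∀ n i j, Measurable fun ω => A n ω i j)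
    (hsymm : ∀ n ω, (A n ω).IsSymm)
    (hind : ∀ n, iIndepFun (fun (p : {p : Fin n × Fin n // p.1 ≤ p.2}) ω => A n ω p.1.1 p.1.2) P)
    (hunif : ∀ n i j, P {ω | A n ω i j = 1} = 1 / 2 ∧ P {ω | A n ω i j = -1} = 1 / 2)
    (c : ℝ) (hc : 2 < c) (z : ℕ → ℕ)
    (hz : ∀ᶠ n : ℕ in atTop, c * n / Real.logb 2 n ≤ z n ∧ z n + 2 ≤ n)
    (q s r : ℕ → ℝ) (hq : ∀ n, q n = P.real {ω | (A n ω).det = 0})
    (hs : ∀ n, s n = P.real {ω | KillsSparse (A n ω) (z n)})
    (hr : ∀ n, r n = P.real {ω | (A n ω).det = 0 ∧ ¬ KillsSparse (A n ω) (z n)}) :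
    Tendsto (fun n : ℕ => s n ^ (1 / (n : ℝ))) atTop (𝓝 (1 / 2)) ∧
    Tendsto (fun n : ℕ => q n ^ (1 / (n : ℝ)) - max (1 / 2) (r n ^ (1 / (n : ℝ)))) atTop (𝓝 0) ∧
    ∃ κ : ℝ, 0 < κ ∧ κ < 1 / 2 ∧ ∀ᶠ n : ℕ in atTop,
      |s n - n * (n - 1) / 2 ^ n| ≤ κ ^ n ∧
      |(q n - r n) - n * (n - 1) / 2 ^ n| ≤ κ ^ n ∧
      P.real {ω | KillsSparse (A n ω) (z n) ∧ ¬ ∃ i j : Fin n, i ≠ j ∧
        ((∀ k, A n ω k i = A n ω k j) ∨ (∀ k, A n ω k i = -A n ω k j))} ≤ κ ^ n := by
  have hz1 : ∀ᶠ n : ℕ in atTop, c * n / Real.logb 2 n ≤ z n := hz.mono fun n h => h.1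
  have hz2 : ∀ᶠ n : ℕ in atTop, z n + 2 ≤ n := hz.mono fun n h => h.2
  obtain ⟨⟨κ, hκ0, hκ1, hκ⟩, _⟩ := SparseKernel.result c hc z hz1 hz2
  have hlaw : ∀ (n : ℕ) (E : Matrix (Fin n) (Fin n) ℝ → Prop),
      P.real {ω | E (A n ω)} = SparseKernel.Pr n E := by
    intro n E
    refine _root_.P160.law_eq (a := fun i j ω => A n ω i j) (hmeas n) (fun i j => ?_) (hind n)
      (hunif n) E
    funext ω
    exact ((hsymm n ω).apply i j).symm
  have es : ∀ n, s n = SparseKernel.Pr n (SparseKernel.HasSparseKernel (z n)) :=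
    fun n => (hs n).trans (hlaw n fun B => KillsSparse B (z n))
  have eq : ∀ n, q n = SparseKernel.Pr n (fun B => B.det = 0) :=
    fun n => (hq n).trans (hlaw n fun B => B.det = 0)
  have er : ∀ n, r n = SparseKernel.Pr n
      (fun B => B.det = 0 ∧ ¬ SparseKernel.HasSparseKernel (z n) B) :=
    fun n => (hr n).trans (hlaw n fun B => B.det = 0 ∧ ¬ KillsSparse B (z n))
  have hs1 : ∀ᶠ n : ℕ in atTop, |s n - n * (n - 1) / 2 ^ n| ≤ κ ^ n := by
    filter_upwards [hκ] with n hn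
    rw [es]
    exact hn.1
  have hq1 : ∀ᶠ n : ℕ in atTop, |(q n - r n) - n * (n - 1) / 2 ^ n| ≤ κ ^ n := by
    filter_upwards [hκ] with n hn
    have h1 := hn.2.2
    rw [← eq, ← er] at h1
    rwa [show (q n - r n) - n * (n - 1) / 2 ^ n = q n - (n * (n - 1) / 2 ^ n + r n) by ring]
  obtain ⟨_, hs2⟩ := _root_.P160.rate_half hκ0 hκ1 hs1
  obtain ⟨hp, hp2⟩ := _root_.P160.rate_half (p := fun n => q n - r n) hκ0 hκ1 hq1
  refine ⟨hs2, ?_, κ, hκ0, hκ1, ?_⟩
  · refine _root_.P160.rate_max (p := fun n => q n - r n) (fun n => by ring) hp (fun n => ?_)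
      (fun n => ?_) hp2
    · rw [hr]
      exact measureReal_nonneg
    · rw [hr]
      exact measureReal_le_one
  · filter_upwards [hs1, hq1, hκ] with n h1 h2 h3
    refine ⟨h1, h2, ?_⟩
    have h4 := hlaw n fun B => KillsSparse B (z n) ∧ ¬ ∃ i j : Fin n, i ≠ j ∧
      ((∀ k, B k i = B k j) ∨ (∀ k, B k i = -B k j))
    exact h4.le.trans h3.2.1

end Vale.Agent.Results.P160.RateReduction
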