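import Vale.Agent.Lib.P160.Lim
import Vale.Agent.Lib.P160.Union

/-! P160: kernel vectors with many zero coordinates of a random symmetric sign matrix. -/

namespace Vale.Agent.Results.P160.SparseKernel

open Filter Topology

/-- the symmetric `n × n` matrices with entries `1` and `-1` -/
def SymSign (n : ℕ) : Set (Matrix (Fin n) (Fin n) ℝ) :=
  {A | A.IsSymm ∧ ∀ i j, A i j = 1 ∨ A i j = -1}

/-- the probability that a uniformly random symmetric sign matrix has the property `E` -/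
noncomputable def Pr (n : ℕ) (E : Matrix (Fin n) (Fin n) ℝ → Prop) : ℝ :=
  ((SymSign n ∩ {A | E A}).ncard : ℝ) / ((SymSign n).ncard : ℝ)

/-- `A` has a nonzero kernel vector with at least `z` coordinates equal to zero -/
def HasSparseKernel {n : ℕ} (z : ℕ) (A : Matrix (Fin n) (Fin n) ℝ) : Prop :=
  ∃ v : Fin n → ℝ, v ≠ 0 ∧ A.mulVec v = 0 ∧ z ≤ (Finset.univ.filter fun j => v j = 0).card

/-- two different columns of `A` agree up to a global sign -/
def HasParallelColumns {n : ℕ} (A : Matrix (Fin n) (Fin n) ℝ) : Prop :=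
  ∃ i j : Fin n, i ≠ j ∧ ((∀ r, A r i = A r j) ∨ (∀ r, A r i = -A r j))

private theorem card_iff {α : Type*} [Fintype α] {p q : α → Prop} {hp : DecidablePred p}
    {hq : DecidablePred q} (h : ∀ a, p a ↔ q a) :
    (Finset.univ.filter p).card = (Finset.univ.filter q).card := by
  congr 1
  ext a
  simp [h a]

open _root_.P160 in
private theorem ncard_eq (n : ℕ) (E : Matrix (Fin n) (Fin n) ℝ → Prop) :
    (SymSign n ∩ {A | E A}).ncard
      = ({g : Sym2 (Fin n) → Bool | E (Matrix.of fun i j => sg (g s(i, j)))} : Set _).ncard := by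
  symm
  refine Set.ncard_congr (fun g _ => Matrix.of fun i j => sg (g s(i, j))) ?_ ?_ ?_
  · intro g hg
    refine ⟨⟨?_, fun i j => ?_⟩, hg⟩
    · ext i j
      simp only [Matrix.transpose_apply, Matrix.of_apply]
      rw [Sym2.eq_swap]
    · exact sg_cases _
  · intro g g' _ _ h
    funext x
    induction x using Sym2.ind with
    | _ i j =>
      have := congrFun (congrFun h i) j
      simp only [Matrix.of_apply] at this
      exact sg_inj this
  · rintro A ⟨⟨hA1, hA2⟩, hA3⟩
    classical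
    refine ⟨Sym2.lift ⟨fun i j => decide (A i j = 1), fun i j => ?_⟩, ?_, ?_⟩
    · simp only []
      rw [show A i j = A j i from (hA1.apply i j).symm ▸ rfl]
    · have h1 : (Matrix.of fun i j => sg ((Sym2.lift ⟨fun i j => decide (A i j = 1), fun i j => by
          simp only []
          rw [show A i j = A j i from (hA1.apply i j).symm ▸ rfl]⟩) s(i, j))) = A := by
        ext i j
        simp only [Matrix.of_apply, Sym2.lift_mk]
        rcases hA2 i j with h | h
        · rw [h]; simp [sg]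
        · rw [h]; norm_num [sg]
      rw [Set.mem_ofPred_eq, h1]
      exact hA3
    · ext i j
      simp only [Matrix.of_apply, Sym2.lift_mk]
      rcases hA2 i j with h | h
      · rw [h]; simp [sg]
      · rw [h]; norm_num [sg]

open _root_.P160 in
open Classical in
private theorem Pr_eq (n : ℕ) (E : Matrix (Fin n) (Fin n) ℝ → Prop) :
    Pr n E = ((Finset.univ.filter fun g : Sym2 (Fin n) → Bool =>
      E (Matrix.of fun i j => sg (g s(i, j)))).card : ℝ) / 2 ^ Fintype.card (Sym2 (Fin n)) := by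
  have h1 : (SymSign n).ncard = 2 ^ Fintype.card (Sym2 (Fin n)) := by
    have h2 := ncard_eq n (fun _ => True)
    have h3 : (SymSign n ∩ {A | True}) = SymSign n := by
      ext A
      simp
    have h4 : ({g : Sym2 (Fin n) → Bool | True} : Set _) = Set.univ := by
      ext g
      simp
    rw [h3, h4, Set.ncard_univ, Nat.card_eq_fintype_card, Fintype.card_fun, Fintype.card_bool] at h2
    exact h2
  have h5 : ({g : Sym2 (Fin n) → Bool | E (Matrix.of fun i j => sg (g s(i, j)))} : Set _).ncard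
      = (Finset.univ.filter fun g : Sym2 (Fin n) → Bool =>
        E (Matrix.of fun i j => sg (g s(i, j)))).card := by
    rw [← Set.ncard_coe_finset]
    congr 1
    ext g
    simp
  rw [Pr, h1, ncard_eq, h5]
  push_cast
  rfl

open _root_.P160 in
private theorem sparse_iff {n z : ℕ} (g : Sym2 (Fin n) → Bool) :
    HasSparseKernel z (Matrix.of fun i j => sg (g s(i, j))) ↔ Sp z g := by
  unfold HasSparseKernel Sp
  refine exists_congr fun v => and_congr_right fun _ => and_congr_left fun _ => ?_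
  rw [funext_iff]
  refine forall_congr' fun r => ?_
  rfl

open _root_.P160 in
private theorem par_iff {n : ℕ} (g : Sym2 (Fin n) → Bool) :
    HasParallelColumns (Matrix.of fun i j => sg (g s(i, j)))
      ↔ ∃ i j : Fin n, i ≠ j ∧ ∃ b, Ev i j b g := by
  unfold HasParallelColumns Ev
  refine exists_congr fun i => exists_congr fun j => and_congr_right fun _ => ?_
  constructor
  · rintro (h | h)
    · refine ⟨false, fun r => ?_⟩
      have := sg_inj (h r)
      rw [this]
      simp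
    · refine ⟨true, fun r => ?_⟩
      have h1 := h r
      simp only [Matrix.of_apply] at h1
      rw [← sg_not] at h1
      rw [sg_inj h1]
      simp
  · rintro ⟨b, hb⟩
    cases b with
    | false =>
      left
      intro r
      simp only [Matrix.of_apply]
      rw [hb r]
      simp
    | true =>
      right
      intro r
      simp only [Matrix.of_apply]
      rw [hb r, ← sg_not]
      simp

open _root_.P160 in
open Classical in
private theorem bounds (c : ℝ) (hc : 2 < c) (z : ℕ → ℕ)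
    (hz : ∀ᶠ n : ℕ in atTop, c * n / Real.logb 2 n ≤ z n) (hz2 : ∀ᶠ n : ℕ in atTop, z n + 2 ≤ n) :
    ∃ r : ℝ, 0 < r ∧ r < 1 ∧ ∀ᶠ n : ℕ in atTop,
      (n * (n - 1) : ℝ) * (1 / 2 ^ n - n ^ 2 / 4 ^ (n - 4)) ≤ Pr n (HasSparseKernel (z n)) ∧
      Pr n (HasSparseKernel (z n)) ≤ (n * (n - 1) : ℝ) / 2 ^ n + (n + 1) * (r ^ n / 2 ^ n) ∧
      Pr n (fun A => HasSparseKernel (z n) A ∧ ¬ HasParallelColumns A)
        ≤ (n + 1) * (r ^ n / 2 ^ n) := by
  obtain ⟨r, hr0, hr1, hr⟩ := term_ev c hc z hz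
  refine ⟨r, hr0, hr1, ?_⟩
  filter_upwards [hr, hz2] with n hn hzn
  have hM : (0 : ℝ) < 2 ^ Fintype.card (Sym2 (Fin n)) := by positivity
  have hsum := sum_bound (z := z n) (show (0 : ℝ) ≤ r ^ n / 2 ^ n by positivity)
    (fun S I h1 h2 h3 => hn S I h1 h2 h3)
  have hN : n ≤ Fintype.card (Sym2 (Fin n)) := by
    rw [Sym2.card, Fintype.card_fin]
    have := Nat.choose_le_choose 2 (show n + 1 ≤ n + 1 from le_rfl)
    rw [Nat.choose_two_right, Nat.add_sub_cancel]
    rcases n with _ | n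
    · exact Nat.zero_le _
    · rw [Nat.le_div_iff_mul_le two_pos]
      nlinarith
  have e1 : Pr n (HasSparseKernel (z n))
      = ((Finset.univ.filter fun g : Sym2 (Fin n) → Bool => Sp (z n) g).card : ℝ)
        / 2 ^ Fintype.card (Sym2 (Fin n)) := by
    rw [Pr_eq]
    congr 2
    exact card_iff fun g => sparse_iff g
  have e2 : Pr n (fun A => HasSparseKernel (z n) A ∧ ¬ HasParallelColumns A)
      = ((Finset.univ.filter fun g : Sym2 (Fin n) → Bool =>
          Sp (z n) g ∧ ¬ ∃ i j : Fin n, i ≠ j ∧ ∃ b, Ev i j b g).card : ℝ)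
        / 2 ^ Fintype.card (Sym2 (Fin n)) := by
    rw [Pr_eq]
    congr 2
    exact card_iff fun g => by rw [sparse_iff, par_iff]
  have e3 : ∑ S ∈ (Finset.univ : Finset (Finset (Fin n))).filter
      (fun S => 3 ≤ S.card ∧ S.card + z n ≤ n),
        ∑ I ∈ (Finset.univ : Finset (Finset (Fin n))).filter (fun I => I.card = S.card - 1),
          bet rho S Iᶜ * 2 ^ Fintype.card (Sym2 (Fin n))
      ≤ (n + 1) * (r ^ n / 2 ^ n) * 2 ^ Fintype.card (Sym2 (Fin n)) := by
    simp only [← Finset.sum_mul]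
    exact mul_le_mul_of_nonneg_right hsum hM.le
  refine ⟨?_, ?_, ?_⟩
  · rw [e1, le_div_iff₀ hM]
    exact card_Sp_ge hzn
  · rw [e1, div_le_iff₀ hM]
    refine (card_Sp_le (z n)).trans ?_
    have e4 : ((n * (n - 1) : ℝ) / 2 ^ n) * 2 ^ Fintype.card (Sym2 (Fin n))
        = (n * (n - 1) : ℝ) * 2 ^ (Fintype.card (Sym2 (Fin n)) - n) := by
      have h5 : Fintype.card (Sym2 (Fin n)) = n + (Fintype.card (Sym2 (Fin n)) - n) := by omega
      conv_lhs => rw [h5, pow_add]
      field_simp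
    rw [add_mul, e4]
    exact add_le_add le_rfl e3
  · rw [e2, div_le_iff₀ hM]
    exact (card_SpN_le (z n)).trans e3

private theorem num_ev {r : ℝ} (hr0 : 0 < r) (hr1 : r < 1) :
    ∃ κ : ℝ, 0 < κ ∧ κ < 1 / 2 ∧ ∀ᶠ n : ℕ in atTop,
      ((n : ℝ) + 1) * (r ^ n / 2 ^ n) ≤ κ ^ n ∧
      (n * (n - 1) : ℝ) * (n ^ 2 / 4 ^ (n - 4)) ≤ κ ^ n := by
  obtain ⟨s, hs⟩ : ∃ s : ℝ, s = (1 + r) / 2 := ⟨_, rfl⟩
  have hs0 : 0 < s := by rw [hs]; linarith
  have hs2 : 1 / (2 * s) < 1 := by
    rw [div_lt_one (by positivity)]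
    linarith
  have hrs : r < s := by rw [hs]; linarith
  have h1 : Tendsto (fun n : ℕ => ((n : ℝ) + 1) * (r / s) ^ n) atTop (𝓝 0) := by
    have h2 := tendsto_self_mul_const_pow_of_lt_one (r := r / s) (by positivity)
      ((div_lt_one hs0).2 hrs)
    have h3 := tendsto_pow_atTop_nhds_zero_of_lt_one (r := r / s) (by positivity)
      ((div_lt_one hs0).2 hrs)
    have h4 := h2.add h3
    rw [add_zero] at h4
    refine h4.congr fun n => ?_
    ring
  have h5 : Tendsto (fun n : ℕ => 256 * ((n : ℝ) ^ 4 * (1 / (2 * s)) ^ n)) atTop (𝓝 (256 * 0)) :=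
    (tendsto_pow_const_mul_const_pow_of_lt_one 4 (by positivity) hs2).const_mul 256
  rw [mul_zero] at h5
  refine ⟨s / 2, by positivity, by linarith, ?_⟩
  filter_upwards [h1.eventually_le_const (show (0 : ℝ) < 1 by norm_num),
    h5.eventually_le_const (show (0 : ℝ) < 1 by norm_num), eventually_ge_atTop 4] with n h2 h6 hn
  constructor
  · have h3 : ((n : ℝ) + 1) * (r ^ n / 2 ^ n) = (((n : ℝ) + 1) * (r / s) ^ n) * (s / 2) ^ n := by
      rw [div_pow, div_pow]
      field_simp
    rw [h3]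
    exact mul_le_of_le_one_left (by positivity) h2
  · have hn0 : (0 : ℝ) ≤ n := Nat.cast_nonneg n
    have e1 : (4 : ℝ) ^ n = 4 ^ (n - 4) * 256 := by
      have : n = (n - 4) + 4 := by omega
      conv_lhs => rw [this, pow_add]
      norm_num
    have e2 : (n : ℝ) ^ 2 * (n ^ 2 / 4 ^ (n - 4)) = 256 * ((n : ℝ) ^ 4 * (1 / 4) ^ n) := by
      rw [one_div_pow, e1]
      have : (0 : ℝ) < 4 ^ (n - 4) := by positivity
      field_simp
    have e3 : (1 / 4 : ℝ) ^ n = (1 / (2 * s)) ^ n * (s / 2) ^ n := by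
      rw [← mul_pow]
      congr 1
      field_simp
      norm_num
    have h7 : (n * (n - 1) : ℝ) * (n ^ 2 / 4 ^ (n - 4)) ≤ (n : ℝ) ^ 2 * (n ^ 2 / 4 ^ (n - 4)) :=
      mul_le_mul_of_nonneg_right (by nlinarith) (by positivity)
    refine h7.trans ?_
    rw [e2, e3, ← mul_assoc, ← mul_assoc, mul_assoc 256]
    exact mul_le_of_le_one_left (by positivity) h6

private theorem rate_iff {q r p : ℕ → ℝ} {κ : ℝ} (hκ0 : 0 < κ) (hκ : κ < 1 / 2)
    (hqr : ∀ n, q n = p n + r n) (hp : ∀ n, 0 ≤ p n) (hr : ∀ n, 0 ≤ r n)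
    (hpn : ∀ᶠ n : ℕ in atTop, |p n - n * (n - 1) / 2 ^ n| ≤ κ ^ n) :
    Tendsto (fun n : ℕ => q n ^ (1 / (n : ℝ))) atTop (𝓝 (1 / 2)) ↔
      ∀ ε : ℝ, 0 < ε → ∀ᶠ n : ℕ in atTop, r n ≤ (1 / 2 + ε) ^ n := by
  have hq : ∀ n, 0 ≤ q n := fun n => by rw [hqr]; exact add_nonneg (hp n) (hr n)
  have key : ∀ n : ℕ, n ≠ 0 → (q n ^ (1 / (n : ℝ))) ^ n = q n := by
    intro n hn
    rw [one_div, Real.rpow_inv_natCast_pow (hq n) hn]
  constructor
  · intro h ε hε
    filter_upwards [h.eventually_lt_const (show (1 / 2 : ℝ) < 1 / 2 + ε by linarith),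
      eventually_ge_atTop 1] with n h1 h2
    have h3 : q n ≤ (1 / 2 + ε) ^ n := by
      rw [← key n (by omega)]
      exact pow_le_pow_left₀ (Real.rpow_nonneg (hq n) _) h1.le n
    have := hqr n
    have := hp n
    linarith
  · intro h
    rw [tendsto_order]
    constructor
    · intro a ha
      filter_upwards [hpn, eventually_ge_atTop 2] with n h1 h2
      have hn2 : (2 : ℝ) ≤ n := by exact_mod_cast h2
      have hpow : (0 : ℝ) < 2 ^ n := by positivity
      have h3 : κ ^ n ≤ (1 / 2) ^ n := pow_le_pow_left₀ hκ0.le hκ.le n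
      have h4 : 2 * (1 / 2 : ℝ) ^ n ≤ n * (n - 1) / 2 ^ n := by
        rw [one_div_pow, mul_one_div]
        exact div_le_div_of_nonneg_right (by nlinarith) hpow.le
      have h5 : (1 / 2 : ℝ) ^ n ≤ q n := by
        have h6 := (abs_le.1 h1).1
        have := hqr n
        have := hr n
        linarith
      have h7 : (1 / 2 : ℝ) ≤ q n ^ (1 / (n : ℝ)) := by
        have h8 := Real.rpow_le_rpow (by positivity) h5 (show 0 ≤ 1 / (n : ℝ) by positivity)
        rwa [one_div (n : ℝ), Real.pow_rpow_inv_natCast (by norm_num) (by omega),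
          ← one_div (n : ℝ)] at h8
      linarith
    · intro b hb
      obtain ⟨ε, hε⟩ : ∃ ε : ℝ, ε = (b - 1 / 2) / 2 := ⟨_, rfl⟩
      have hε0 : 0 < ε := by rw [hε]; linarith
      have hb0 : 0 < b := by linarith
      have hlt : (1 / 2 + ε) / b < 1 := by
        rw [div_lt_one hb0, hε]
        linarith
      have h1 : Tendsto (fun n : ℕ => (n : ℝ) ^ 2 * ((1 / 2 + ε) / b) ^ n
          + 2 * ((1 / 2 + ε) / b) ^ n) atTop (𝓝 (0 + 2 * 0)) :=
        (tendsto_pow_const_mul_const_pow_of_lt_one 2 (by positivity) hlt).add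
          ((tendsto_pow_atTop_nhds_zero_of_lt_one (by positivity) hlt).const_mul 2)
      rw [mul_zero, add_zero] at h1
      filter_upwards [hpn, h ε hε0, h1.eventually_lt_const (show (0 : ℝ) < 1 by norm_num),
        eventually_ge_atTop 1] with n h2 h3 h4 h5
      have hn0 : (0 : ℝ) ≤ n := Nat.cast_nonneg n
      have hpow : (0 : ℝ) < 2 ^ n := by positivity
      have c1 : κ ^ n ≤ (1 / 2 + ε) ^ n := pow_le_pow_left₀ hκ0.le (by linarith) n
      have c2 : (n * (n - 1) : ℝ) / 2 ^ n ≤ n ^ 2 * (1 / 2 + ε) ^ n := by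
        have c3 : (1 / 2 : ℝ) ^ n ≤ (1 / 2 + ε) ^ n :=
          pow_le_pow_left₀ (by norm_num) (by linarith) n
        have c4 : (n * (n - 1) : ℝ) / 2 ^ n ≤ n ^ 2 * (1 / 2 : ℝ) ^ n := by
          rw [one_div_pow, mul_one_div]
          exact div_le_div_of_nonneg_right (by nlinarith) hpow.le
        exact c4.trans (mul_le_mul_of_nonneg_left c3 (by positivity))
      have c5 : q n ≤ (n ^ 2 + 2) * (1 / 2 + ε) ^ n := by
        have := (abs_le.1 h2).2
        have := hqr n
        linarith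
      have c6 : ((n : ℝ) ^ 2 + 2) * (1 / 2 + ε) ^ n < b ^ n := by
        have e : ((n : ℝ) ^ 2 + 2) * (1 / 2 + ε) ^ n
            = ((n : ℝ) ^ 2 * ((1 / 2 + ε) / b) ^ n + 2 * ((1 / 2 + ε) / b) ^ n) * b ^ n := by
          rw [div_pow]
          have : b ^ n ≠ 0 := by positivity
          field_simp
        rw [e]
        exact mul_lt_of_lt_one_left (by positivity) h4
      by_contra hcon
      push Not at hcon
      have c7 := pow_le_pow_left₀ hb0.le hcon n
      rw [key n (by omega)] at c7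
      linarith

private theorem Pr_nonneg (n : ℕ) (E : Matrix (Fin n) (Fin n) ℝ → Prop) : 0 ≤ Pr n E := by
  unfold Pr
  positivity

private theorem split (n z : ℕ) :
    Pr n (fun A => A.det = 0)
      = Pr n (HasSparseKernel z) + Pr n (fun A => A.det = 0 ∧ ¬ HasSparseKernel z A) := by
  classical
  rw [Pr_eq, Pr_eq, Pr_eq, ← add_div]
  congr 1
  have h5 : (Finset.univ.filter fun g : Sym2 (Fin n) → Bool =>
      (Matrix.of fun i j => _root_.P160.sg (g s(i, j))).det = 0)
      = (Finset.univ.filter fun g : Sym2 (Fin n) → Bool =>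
          HasSparseKernel z (Matrix.of fun i j => _root_.P160.sg (g s(i, j))))
        ∪ (Finset.univ.filter fun g : Sym2 (Fin n) → Bool =>
          (Matrix.of fun i j => _root_.P160.sg (g s(i, j))).det = 0 ∧
            ¬ HasSparseKernel z (Matrix.of fun i j => _root_.P160.sg (g s(i, j)))) := by
    ext g
    simp only [Finset.mem_filter, Finset.mem_univ, true_and, Finset.mem_union]
    constructor
    · intro h
      by_cases h6 : HasSparseKernel z (Matrix.of fun i j => _root_.P160.sg (g s(i, j)))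
      · exact Or.inl h6
      · exact Or.inr ⟨h, h6⟩
    · rintro (⟨v, hv, hv', -⟩ | h)
      · exact Matrix.exists_mulVec_eq_zero_iff.1 ⟨v, hv, hv'⟩
      · exact h.1
  rw [h5, Finset.card_union_of_disjoint]
  · push_cast
    refine congrArg₂ (fun a b : ℕ => (a : ℝ) + b) ?_ ?_
    · exact card_iff fun _ => Iff.rfl
    · exact card_iff fun _ => Iff.rfl
  · rw [Finset.disjoint_left]
    intro g hg hg'
    exact (Finset.mem_filter.1 hg').2.2 (Finset.mem_filter.1 hg).2

/-- **Kernel vectors with many zero coordinates.**  Let `z n ≥ c n / log₂ n` with `c > 2` and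
`z n ≤ n - 2`. -/
theorem result (c : ℝ) (hc : 2 < c) (z : ℕ → ℕ)
    (hz : ∀ᶠ n : ℕ in atTop, c * n / Real.logb 2 n ≤ z n)
    (hz2 : ∀ᶠ n : ℕ in atTop, z n + 2 ≤ n) :
    (∃ κ : ℝ, 0 < κ ∧ κ < 1 / 2 ∧ ∀ᶠ n : ℕ in atTop,
      |Pr n (HasSparseKernel (z n)) - n * (n - 1) / 2 ^ n| ≤ κ ^ n ∧
      Pr n (fun A => HasSparseKernel (z n) A ∧ ¬ HasParallelColumns A) ≤ κ ^ n ∧
      |Pr n (fun A => A.det = 0)
        - (n * (n - 1) / 2 ^ n + Pr n (fun A => A.det = 0 ∧ ¬ HasSparseKernel (z n) A))|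
          ≤ κ ^ n) ∧
    (Tendsto (fun n : ℕ => Pr n (fun A => A.det = 0) ^ (1 / (n : ℝ))) atTop (𝓝 (1 / 2)) ↔
      ∀ ε : ℝ, 0 < ε → ∀ᶠ n : ℕ in atTop,
        Pr n (fun A => A.det = 0 ∧ ¬ HasSparseKernel (z n) A) ≤ (1 / 2 + ε) ^ n) := by
  obtain ⟨r, hr0, hr1, hev⟩ := bounds c hc z hz hz2
  obtain ⟨κ, hκ0, hκ1, hκ⟩ := num_ev hr0 hr1
  have hmain : ∀ᶠ n : ℕ in atTop,
      |Pr n (HasSparseKernel (z n)) - n * (n - 1) / 2 ^ n| ≤ κ ^ n := by
    filter_upwards [hev, hκ] with n h1 h2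
    have e : (n * (n - 1) : ℝ) * (1 / 2 ^ n - n ^ 2 / 4 ^ (n - 4))
        = n * (n - 1) / 2 ^ n - (n * (n - 1) : ℝ) * (n ^ 2 / 4 ^ (n - 4)) := by ring
    have h3 := h1.1
    rw [e] at h3
    rw [abs_le]
    constructor <;> linarith [h1.2.1, h2.1, h2.2]
  refine ⟨⟨κ, hκ0, hκ1, ?_⟩, ?_⟩
  · filter_upwards [hev, hκ, hmain] with n h1 h2 h3
    refine ⟨h3, h1.2.2.trans h2.1, ?_⟩
    rw [split n (z n)]
    have e : Pr n (HasSparseKernel (z n)) + Pr n (fun A => A.det = 0 ∧ ¬ HasSparseKernel (z n) A)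
        - (n * (n - 1) / 2 ^ n + Pr n (fun A => A.det = 0 ∧ ¬ HasSparseKernel (z n) A))
        = Pr n (HasSparseKernel (z n)) - n * (n - 1) / 2 ^ n := by ring
    rw [e]
    exact h3
  · exact rate_iff hκ0 hκ1 (fun n => split n (z n)) (fun n => Pr_nonneg n _)
      (fun n => Pr_nonneg n _) hmain

end Vale.Agent.Results.P160.SparseKernel
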